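import Crest.Agent.X212.Map77.IxL_Mg
import Crest.Agent.X212.Cyl58.Sf
import Crest.Agent.X212.Glu27.Main_Mg
import Crest.Agent.X212.Mp86.Dl_Mg
import Crest.Agent.X212.Dtp51.Main
import Crest.Agent.X212.Dm83.Tm
import Crest.Agent.X212.Mp86.Cv2
import Crest.Agent.X212.Cyl58.Ah
import Crest.Agent.X212.Cyc79.Ed

/-!
# Row 212, lane IND-S (helper82): the leaves put together
-/

set_option autoImplicit false
set_option linter.unusedSectionVars false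
noncomputable section
open Function

namespace Crest.Agent.X212.Ix82
open Sw Sw.En3
open Map77.S (ixOp ixSym ixMu)

variable {κ lam ν : Type} [Fintype κ] [Fintype lam] [Fintype ν] [DecidableEq ν]

theorem ixA : IxA κ lam ν :=
  have o := ixOp κ lam ν
  have s := ixSym κ lam ν
  have r := Sw21.ixRep o s
  ⟨s, r, Sw21.ixFred o s, Sw21.ixCyl o s, Add68.ixAdd o s r (Sw21.ixFred o s) (Sw21.ixCyl o s),
    Ax1.Ix.ixGau s r⟩

/-- **IX-INV** -/
theorem ixInv (h : End23.BijStmt κ lam ν) : IxInv κ lam ν := fun e he hw v hv nd hi => by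
  have k := (h.irr e he hw v hv hi).1 nd
  rw [End23.TT, (ixMu _ _ _ e he).1, (ixMu _ _ _ e he).2 hw v hv.1] at k
  exact ⟨((ixSym _ _ _).hs e he v hv.1).1, k⟩

theorem ixB (h : End23.BijStmt κ lam ν) : IxB κ lam ν where
  toIxA := ixA
  nat := Ax1.Ix.ixNat (ixOp _ _ _) ixA.sym ixA.rep
  inv := ixInv h
  loop := ixLoop ixA
  mu := ixMu _ _ _
  cel _ _ _ _ _ _ _ _ _ _ _ := ⟨Map77.S.ixFam _ _ _ _ _ ixA.rep ixA.fred,
    Map77.S.ixLin _ _ _ _ _ _ ixA.sym ixA.rep, Map77.S.ixRow _ _ _ _ _ _, Asm.md⟩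

theorem da {U : Type} [NormedAddCommGroup U] [InnerProductSpace ℝ U] [FiniteDimensional ℝ U] :
    DA κ U :=
  have t := Dm83.dTame κ U
  have i := Dm83.dInt (Mp86.Dl.dLoc κ U)
  ⟨Dm83.dFred κ U, Dm83.dMir, Dm83.dMit, Glu27.dGlu _ _, i, Add68.dAdd t,
    Add68.dRit t (Mp86.Dl.dClo _ _) Dm83.dMir (Glu27.dGlu _ _) i, Dtp51.dTop1, Dtp51.dTop2⟩

theorem bij : End23.BijStmt κ lam ν := Cyc79.bijStmt (Ah58.sfStmt _ _ _) Ah58.ahStmt

/-- all leaves of IND-S -/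
theorem ixC : IxC κ lam ν :=
  ⟨ixB bij, da, Mp86.Cv.dConv _ _ _ ixA.sym, Mp86.En.dCs _ _ _, Mp86.En.dBnd _ _ _⟩

/-- **IND-S** -/
theorem ind {mk : Flo2.Mk κ lam ν} (hm : Mks mk) (e₀ : En3 κ lam ν) : Flo2.IndStmt (G e₀) mk :=
  ixC.ind hm e₀

end Crest.Agent.X212.Ix82
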